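import Vale.Agent.P202.Char.KoszulSmall
import Vale.Agent.P202.Char.Existence
import Mathlib.RingTheory.Ideal.AssociatedPrime.Finiteness

/-!
P202: multiplicities of modules in a fixed degree, their additivity in short exact sequences, and
the values at quotient rings.
-/

namespace Vale.Agent.P202.TopComp

open IsLocalRing Filter Topology Vale.Agent.P202.Char
open scoped TensorProduct

universe u v

/-- `a` is the multiplicity of `M` in degree `d`. -/
def HasMult (R : Type u) [CommRing R] [IsLocalRing R] (M : Type v) [AddCommGroup M] [Module R M]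
    (d : ℕ) (a : ℝ) : Prop :=
  Tendsto (fun N : ℕ => (d.factorial : ℝ) * ((Module.length R
    (M ⧸ (maximalIdeal R ^ N • ⊤ : Submodule R M))).toNat : ℝ) / (N : ℝ) ^ d) atTop (𝓝 a)

variable {R : Type u} [CommRing R] [IsLocalRing R]

theorem HasMult.congr {M M' : Type v} [AddCommGroup M] [Module R M] [AddCommGroup M']
    [Module R M'] (e : M ≃ₗ[R] M') {d : ℕ} {a : ℝ} (h : HasMult R M d a) : HasMult R M' d a := by
  refine Tendsto.congr (fun N => ?_) h
  rw [(Submodule.Quotient.equiv (maximalIdeal R ^ N • ⊤ : Submodule R M)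
    (maximalIdeal R ^ N • ⊤) e (by
      rw [Submodule.map_smul'', Submodule.map_top, LinearEquiv.range])).length_eq]

theorem hasMult_of_subsingleton (M : Type v) [AddCommGroup M] [Module R M] [Subsingleton M]
    (d : ℕ) : HasMult R M d 0 := by
  refine Tendsto.congr (fun N => ?_) tendsto_const_nhds
  simp [Module.length_eq_zero_iff.2 (inferInstance : Subsingleton
    (M ⧸ (maximalIdeal R ^ N • ⊤ : Submodule R M)))]

/-- Shifting the argument does not change the limit. -/
theorem tendsto_shift {d c : ℕ} {a : ℝ} {L : ℕ → ℝ}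
    (h : Tendsto (fun N : ℕ => L N / (N : ℝ) ^ d) atTop (𝓝 a)) :
    Tendsto (fun N : ℕ => L N / ((N + c : ℕ) : ℝ) ^ d) atTop (𝓝 a) := by
  have h2 : Tendsto (fun N : ℕ => ((N : ℝ) / (N + c)) ^ d) atTop (𝓝 1) := by
    simpa using (tendsto_natCast_div_add_atTop (c : ℝ)).pow d
  have := h.mul h2
  rw [mul_one] at this
  refine this.congr' ?_
  filter_upwards [eventually_ge_atTop 1] with N hN
  have : (0 : ℝ) < N := by exact_mod_cast hN
  rw [Nat.cast_add, div_pow]
  field_simp

/-- Additivity in short exact sequences. -/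
theorem HasMult.of_exact [IsNoetherianRing R] {M₁ M₂ M₃ : Type u} [AddCommGroup M₁] [Module R M₁]
    [AddCommGroup M₂] [Module R M₂] [Module.Finite R M₂] [AddCommGroup M₃] [Module R M₃]
    (f : M₁ →ₗ[R] M₂) (g : M₂ →ₗ[R] M₃) (hf : Function.Injective f) (hg : Function.Surjective g)
    (hfg : Function.Exact f g) {d : ℕ} {a b : ℝ} (h₁ : HasMult R M₁ d a) (h₃ : HasMult R M₃ d b) :
    HasMult R M₂ d (a + b) := by
  set m := maximalIdeal R
  have : Module.Finite R M₁ := Module.Finite.of_injective f hf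
  have : Module.Finite R M₃ := Module.Finite.of_surjective g hg
  obtain ⟨c, hc⟩ := Ideal.exists_pow_inf_eq_pow_smul m (LinearMap.range f)
  let L₁ := fun N : ℕ => ((Module.length R (M₁ ⧸ (m ^ N • ⊤ : Submodule R M₁))).toNat : ℝ)
  let L₂ := fun N : ℕ => ((Module.length R (M₂ ⧸ (m ^ N • ⊤ : Submodule R M₂))).toNat : ℝ)
  let L₃ := fun N : ℕ => ((Module.length R (M₃ ⧸ (m ^ N • ⊤ : Submodule R M₃))).toNat : ℝ)
  have hsand : ∀ N, L₃ (N + c) + L₁ N ≤ L₂ (N + c) ∧ L₂ N ≤ L₃ N + L₁ N := by
    have key : ∀ N, L₂ N = L₃ N + ((Module.length R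
        (M₁ ⧸ (m ^ N • ⊤ : Submodule R M₂).comap f)).toNat : ℝ) ∧
        (m ^ N • ⊤ : Submodule R M₁) ≤ (m ^ N • ⊤ : Submodule R M₂).comap f ∧
        Module.length R (M₁ ⧸ (m ^ N • ⊤ : Submodule R M₁)) ≠ ⊤ := by
      intro N
      set K := (m ^ N • ⊤ : Submodule R M₂).comap f
      have hle : (m ^ N • ⊤ : Submodule R M₁) ≤ K := by
        rw [← Submodule.map_le_iff_le_comap, Submodule.map_smul'']
        exact Submodule.smul_mono le_rfl le_top
      have hg' : (m ^ N • ⊤ : Submodule R M₂).map g = m ^ N • ⊤ := by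
        rw [Submodule.map_smul'', Submodule.map_top, LinearMap.range_eq_top.2 hg]
      let f' : M₁ ⧸ K →ₗ[R] M₂ ⧸ (m ^ N • ⊤ : Submodule R M₂) := Submodule.mapQ K _ f le_rfl
      let g' : M₂ ⧸ (m ^ N • ⊤ : Submodule R M₂) →ₗ[R] M₃ ⧸ (m ^ N • ⊤ : Submodule R M₃) :=
        Submodule.mapQ _ _ g (Submodule.map_le_iff_le_comap.1 hg'.le)
      have hfi : Function.Injective f' := by
        rw [injective_iff_map_eq_zero]
        intro x hx
        obtain ⟨x, rfl⟩ := Submodule.mkQ_surjective _ x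
        simp only [f', Submodule.mkQ_apply, Submodule.mapQ_apply,
          Submodule.Quotient.mk_eq_zero] at hx ⊢
        exact hx
      have hgs : Function.Surjective g' := by
        intro y
        obtain ⟨y, rfl⟩ := Submodule.mkQ_surjective _ y
        obtain ⟨x, rfl⟩ := hg y
        exact ⟨Submodule.Quotient.mk x, rfl⟩
      have hex : Function.Exact f' g' := by
        intro y
        obtain ⟨y, rfl⟩ := Submodule.mkQ_surjective _ y
        simp only [g', Submodule.mkQ_apply, Submodule.mapQ_apply, Submodule.Quotient.mk_eq_zero,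
          Set.mem_range]
        constructor
        · intro hy
          rw [← hg'] at hy
          obtain ⟨z, hz, hzy⟩ := Submodule.mem_map.1 hy
          obtain ⟨x, hx⟩ := (hfg (y - z)).1 (by rw [map_sub, hzy, sub_self])
          refine ⟨Submodule.Quotient.mk x, (Submodule.Quotient.eq _).2 ?_⟩
          rw [hx, show y - z - y = -z by abel]
          exact neg_mem hz
        · rintro ⟨x, hx⟩
          obtain ⟨x, rfl⟩ := Submodule.mkQ_surjective _ x
          have h1 : f x - y ∈ (m ^ N • ⊤ : Submodule R M₂) :=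
            (Submodule.Quotient.eq _).1 hx
          have h2 := Submodule.mem_map_of_mem (f := g) h1
          rw [hg', map_sub, hfg.apply_apply_eq_zero, zero_sub] at h2
          simpa using h2
      have hfin : ∀ (M : Type u) [AddCommGroup M] [Module R M] [Module.Finite R M],
          Module.length R (M ⧸ (m ^ N • ⊤ : Submodule R M)) ≠ ⊤ := fun M _ _ _ =>
        length_ne_top_of_killed (N := N) fun r hr y => by
          obtain ⟨y, rfl⟩ := Submodule.mkQ_surjective _ y
          rw [← map_smul, Submodule.mkQ_apply, Submodule.Quotient.mk_eq_zero]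
          exact Submodule.smul_mem_smul hr trivial
      refine ⟨?_, hle, hfin M₁⟩
      show ((Module.length R _).toNat : ℝ) = _
      rw [Module.length_eq_add_of_exact f' g' hfi hgs hex, ENat.toNat_add
        (ne_top_of_le_ne_top (hfin M₁) (Module.length_le_of_surjective (Submodule.factor hle)
          (Submodule.factor_surjective hle))) (hfin M₃), Nat.cast_add, add_comm]
    intro N
    refine ⟨?_, ?_⟩
    · obtain ⟨h2, h21, hfin⟩ := key (N + c)
      rw [h2]
      gcongr
      refine Nat.cast_le.2 (ENat.toNat_le_toNat ?_ (ne_top_of_le_ne_top hfin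
        (Module.length_le_of_surjective (Submodule.factor h21) (Submodule.factor_surjective h21))))
      have hK : (m ^ (N + c) • ⊤ : Submodule R M₂).comap f ≤ m ^ N • ⊤ := by
        intro x hx
        have h1 : f x ∈ m ^ (N + c) • ⊤ ⊓ LinearMap.range f := ⟨hx, ⟨x, rfl⟩⟩
        rw [hc _ (Nat.le_add_left c N), Nat.add_sub_cancel] at h1
        have h3 := Submodule.smul_mono (le_refl (m ^ N)) inf_le_right h1
        rw [← Submodule.map_top f, ← Submodule.map_smul''] at h3
        obtain ⟨z, hz, hzx⟩ := Submodule.mem_map.1 h3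
        rwa [← hf hzx]
      exact Module.length_le_of_surjective (Submodule.factor hK) (Submodule.factor_surjective hK)
    · obtain ⟨h2, h21, hfin⟩ := key N
      rw [h2]
      gcongr
      exact Nat.cast_le.2 (ENat.toNat_le_toNat (Module.length_le_of_surjective
        (Submodule.factor h21) (Submodule.factor_surjective h21)) hfin)
  unfold HasMult at h₁ h₃ ⊢
  have hup : Tendsto (fun N : ℕ => (d.factorial : ℝ) * L₃ N / (N : ℝ) ^ d +
      (d.factorial : ℝ) * L₁ N / (N : ℝ) ^ d) atTop (𝓝 (a + b)) := by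
    rw [add_comm a b]
    exact h₃.add h₁
  have hlow : Tendsto (fun N : ℕ => (d.factorial : ℝ) * L₃ (N + c) / ((N + c : ℕ) : ℝ) ^ d +
      (d.factorial : ℝ) * L₁ N / ((N + c : ℕ) : ℝ) ^ d) atTop (𝓝 (a + b)) := by
    rw [add_comm a b]
    exact (h₃.comp (tendsto_add_atTop_nat c)).add
      (tendsto_shift (L := fun N => (d.factorial : ℝ) * L₁ N) h₁)
  refine (tendsto_add_atTop_iff_nat c).1 (tendsto_of_tendsto_of_tendsto_of_le_of_le hlow
    (hup.comp (tendsto_add_atTop_nat c)) (fun N => ?_) (fun N => ?_))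
  · simp only [← add_div, ← mul_add]
    gcongr
    exact (hsand N).1
  · simp only [Function.comp_apply, ← add_div, ← mul_add]
    gcongr
    exact (hsand (N + c)).2

/-- The multiplicity of a quotient ring as a module is its own multiplicity. -/
theorem hasMult_quotient_iff (I : Ideal R) [IsLocalRing (R ⧸ I)] (d : ℕ) (a : ℝ) :
    HasMult R (R ⧸ I) d a ↔ IsMultiplicity (R ⧸ I) d a := by
  have : IsLocalHom (Ideal.Quotient.mk I) := IsLocalHom.of_surjective _ Ideal.Quotient.mk_surjective
  have hI : I ≤ maximalIdeal R := le_maximalIdeal fun h =>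
    not_nontrivial_iff_subsingleton.2 (Ideal.Quotient.subsingleton_iff.2 h) inferInstance
  have hmap : (maximalIdeal R).map (Ideal.Quotient.mk I) = maximalIdeal (R ⧸ I) :=
    IsLocalRing.eq_maximalIdeal (Ideal.IsMaximal.map_of_surjective_of_ker_le
      Ideal.Quotient.mk_surjective (Ideal.mk_ker.trans_le hI))
  have hlen : ∀ N : ℕ, Module.length R ((R ⧸ I) ⧸ (maximalIdeal R ^ N • ⊤ : Submodule R (R ⧸ I))) =
      Module.length (R ⧸ I) ((R ⧸ I) ⧸ maximalIdeal (R ⧸ I) ^ N) := by
    intro N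
    have h1 : (maximalIdeal R ^ N • ⊤ : Submodule R (R ⧸ I)) =
        (maximalIdeal (R ⧸ I) ^ N).restrictScalars R := by
      rw [Ideal.smul_top_eq_map, ← hmap, ← Ideal.map_pow]
      rfl
    rw [← Module.length_eq_of_surjective (S := R) (R := R ⧸ I) (M := (R ⧸ I) ⧸ maximalIdeal (R ⧸ I) ^ N)
        Ideal.Quotient.mk_surjective,
      ((Submodule.quotEquivOfEq _ _ h1).trans
        (Submodule.Quotient.restrictScalarsEquiv R _)).length_eq]
  unfold HasMult IsMultiplicity
  simp only [hlen]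

/-- Below the degree, the multiplicity vanishes. -/
theorem hasMult_zero_of_lt [IsNoetherianRing R] (I : Ideal R) [IsLocalRing (R ⧸ I)] {d' d : ℕ}
    (hd : ringKrullDim (R ⧸ I) = d') (h : d' < d) : HasMult R (R ⧸ I) d 0 := by
  rw [hasMult_quotient_iff]
  obtain ⟨L, hL⟩ := Exist.exists_bound hd
  obtain ⟨k, rfl⟩ := Nat.exists_eq_add_of_lt h
  have h0 : Tendsto (fun N : ℕ => ((d' + k + 1).factorial : ℝ) * L / (N : ℝ) ^ (k + 1))
      atTop (𝓝 0) :=
    tendsto_const_nhds.div_atTop ((tendsto_pow_atTop (by omega)).comp tendsto_natCast_atTop_atTop)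
  refine squeeze_zero' (Eventually.of_forall fun N => by positivity) ?_ h0
  filter_upwards [eventually_ge_atTop 1] with N hN
  have hN0 : (0 : ℝ) < N := by exact_mod_cast hN
  have h1 : ((Module.length (R ⧸ I) ((R ⧸ I) ⧸ maximalIdeal (R ⧸ I) ^ N)).toNat : ℝ) ≤
      L * (N : ℝ) ^ d' := by
    exact_mod_cast hL N
  rw [show d' + k + 1 = d' + (k + 1) by ring, pow_add,
    div_le_div_iff₀ (by positivity) (by positivity)]
  calc _ ≤ ((d' + (k + 1)).factorial : ℝ) * (L * (N : ℝ) ^ d') * (N : ℝ) ^ (k + 1) := by gcongr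
    _ = _ := by ring

/-- `S ⊗ R/P` is `S/PS`. -/
theorem exists_tensor_quotient (S : Type u) [CommRing S] [Algebra R S] (P : Ideal R) :
    Nonempty ((S ⧸ P.map (algebraMap R S)) ≃ₗ[S] S ⊗[R] (R ⧸ P)) := by
  set Q := P.map (algebraMap R S)
  let g : (S ⧸ Q) →ₗ[S] S ⊗[R] (R ⧸ P) :=
    Submodule.liftQ Q (LinearMap.toSpanSingleton S _ ((1 : S) ⊗ₜ[R] (1 : R ⧸ P))) (by
      refine Ideal.map_le_iff_le_comap.2 fun r hr => ?_
      show algebraMap R S r • ((1 : S) ⊗ₜ[R] (1 : R ⧸ P)) = 0
      rw [algebraMap_smul, ← TensorProduct.tmul_smul, Algebra.smul_def, mul_one,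
        Ideal.Quotient.algebraMap_eq, Ideal.Quotient.eq_zero_iff_mem.2 hr, TensorProduct.tmul_zero])
  let f : S ⊗[R] (R ⧸ P) →ₗ[S] S ⧸ Q :=
    LinearMap.liftBaseChange S (Submodule.liftQ P (Algebra.linearMap R (S ⧸ Q)) fun r hr =>
      Ideal.Quotient.eq_zero_iff_mem.2 (Ideal.mem_map_of_mem _ hr))
  have hfg : ∀ y, f (g y) = y := by
    intro y
    obtain ⟨s, rfl⟩ := Ideal.Quotient.mk_surjective y
    show f (s • ((1 : S) ⊗ₜ[R] (1 : R ⧸ P))) = _
    simp only [f, map_smul, LinearMap.liftBaseChange_tmul, one_smul]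
    show s • (algebraMap R (S ⧸ Q) 1) = _
    rw [map_one, Algebra.smul_def, mul_one]
    rfl
  refine ⟨LinearEquiv.ofBijective g ⟨Function.LeftInverse.injective hfg, fun y => ?_⟩⟩
  induction y with
  | zero => exact ⟨0, map_zero _⟩
  | add x y hx hy =>
    obtain ⟨x', rfl⟩ := hx
    obtain ⟨y', rfl⟩ := hy
    exact ⟨x' + y', map_add _ _ _⟩
  | tmul s r =>
    obtain ⟨r, rfl⟩ := Ideal.Quotient.mk_surjective r
    refine ⟨Submodule.Quotient.mk (algebraMap R S r * s), ?_⟩
    show (algebraMap R S r * s) • ((1 : S) ⊗ₜ[R] (1 : R ⧸ P)) = _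
    rw [mul_smul, TensorProduct.smul_tmul', smul_eq_mul, mul_one, algebraMap_smul,
      ← TensorProduct.tmul_smul, Algebra.smul_def, mul_one, Ideal.Quotient.algebraMap_eq]

end Vale.Agent.P202.TopComp
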