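import Vale.Agent.P202.TopComp.Assoc
import Vale.Agent.P202.Ext.Lech
import Vale.Agent.P202.Zero.General
import Vale.Agent.P202.Zero.ParamBound
import Mathlib.RingTheory.RegularLocalRing.Defs

/-!
P202: Lech's inequality when every component of top dimension is regular or of equal
characteristic, by the associativity formula.
-/

namespace Vale.Agent.P202.TopComp

open IsLocalRing Filter Topology Vale.Agent.P202.Char
open scoped TensorProduct

universe u

/-- The inequality in equal characteristic. -/
theorem lech_equal_char (R S : Type u) [CommRing R] [CommRing S] [IsLocalRing R] [IsLocalRing S]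
    [IsNoetherianRing R] [IsNoetherianRing S] [Algebra R S] [IsLocalHom (algebraMap R S)]
    [Module.Flat R S] (hchar : ringChar R = ringChar (ResidueField R)) {d D : ℕ}
    (hd : ringKrullDim R = d) (hD : ringKrullDim S = D) {e e' : ℝ}
    (he : IsMultiplicity R d e) (he' : IsMultiplicity S D e') : e ≤ e' := by
  rcases eq_or_ne (ringChar (ResidueField R)) 0 with h | h
  · have : CharP (ResidueField R) 0 := ringChar.of_eq h
    have : CharZero (ResidueField R) := CharP.charP_to_charZero _
    exact Zero.lech_general (fun p _ R S => Char.lech_free p R S) R S d D hd hD e e' he he'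
  · have : Fact (ringChar (ResidueField R)).Prime :=
      ⟨CharP.char_is_prime_or_zero (ResidueField R) _ |>.resolve_right h⟩
    have : CharP R (ringChar (ResidueField R)) := ringChar.of_eq hchar
    obtain ⟨d₁, D₁, e₁, e₁', hd₁, hD₁, -, he₁, he₁', hle⟩ :=
      Ext.lech_char_p_all (ringChar (ResidueField R)) R S
    obtain rfl : d = d₁ := by exact_mod_cast hd.symm.trans hd₁
    obtain rfl : D = D₁ := by exact_mod_cast hD.symm.trans hD₁
    rwa [tendsto_nhds_unique he he₁, tendsto_nhds_unique he' he₁']

/-- Multiplicities are at least one. -/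
theorem one_le_multiplicity (R : Type u) [CommRing R] [IsLocalRing R] [IsNoetherianRing R] {d : ℕ}
    (hd : ringKrullDim R = d) {e : ℝ} (he : IsMultiplicity R d e) : 1 ≤ e := by
  cases d with
  | zero =>
    refine ge_of_tendsto he ?_
    filter_upwards [eventually_ge_atTop 1] with N hN
    have h1 : Module.length R (R ⧸ maximalIdeal R ^ N) ≠ 0 := by
      rw [Ne, Module.length_eq_zero_iff, Ideal.Quotient.subsingleton_iff]
      exact fun h => (maximalIdeal.isMaximal R).ne_top
        (top_unique (h.ge.trans (Ideal.pow_le_self (by omega))))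
    have h2 : (Module.length R (R ⧸ maximalIdeal R ^ N)).toNat ≠ 0 := by
      rw [Ne, ENat.toNat_eq_zero, not_or]
      exact ⟨h1, length_quotient_ne_top _ _ le_rfl⟩
    simp only [Nat.factorial_zero, Nat.cast_one, one_mul, pow_zero, div_one]
    exact Nat.one_le_cast.2 (Nat.one_le_iff_ne_zero.2 h2)
  | succ n =>
    have := InfRes.infinite_residue R
    have : IsNoetherianRing (InfRes.GRing R) :=
      IsLocalization.isNoetherianRing (InfRes.gPrime R).primeCompl _ inferInstance
    have heG := (InfRes.isMultiplicity_iff (InfRes.map_maximal R) (n + 1) e).1 he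
    have hpos : 0 < e := multiplicity_pos hd he
    obtain ⟨Z⟩ := exists_redData heG hpos.ne'
    obtain ⟨T, g, γ, hB⟩ := Red.exists_basisData Z
    have h := tendsto_nhds_unique heG (Red.multiplicity_eq_card Z hB)
    rw [h] at hpos ⊢
    exact Nat.one_le_cast.2 (Nat.cast_pos.1 hpos)

/-- A regular local ring has multiplicity at most one. -/
theorem multiplicity_le_one (T : Type u) [CommRing T] [IsRegularLocalRing T] {d : ℕ}
    (hd : ringKrullDim T = d) {e : ℝ} (he : IsMultiplicity T d e) : e ≤ 1 := by
  set m := maximalIdeal T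
  have hfg : m.FG := IsNoetherian.noetherian m
  have hn : m.spanFinrank = d := by
    have h := IsRegularLocalRing.spanFinrank_maximalIdeal (R := T)
    rw [hd] at h
    exact_mod_cast h
  have := (Submodule.FG.finite_generators hfg).to_subtype
  have hcard : Nat.card (Submodule.generators m) = d := by
    rw [← hn, ← Submodule.FG.generators_ncard hfg, Nat.card_coe_set_eq]
  let σ := Finite.equivFinOfCardEq hcard
  set x : Fin d → T := fun i => (σ.symm i).1
  have hx : ∀ i, x i ∈ m := fun i => Submodule.FG.generators_mem m (σ.symm i).2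
  have hspan : Ideal.span (Set.range x) = m := by
    rw [show Set.range x = Submodule.generators m from
      (σ.symm.surjective.range_comp Subtype.val).trans Subtype.range_coe]
    exact Submodule.span_generators m
  have h1 := Zero.mult_mul_pow_le he x hx (c := 0) (by rw [hspan, pow_one, pow_zero, mul_one])
    1 one_pos
  simp only [Nat.cast_one, one_pow, mul_one] at h1
  have : IsSimpleModule T (T ⧸ m) := isSimpleModule_iff_isCoatom.2 (maximalIdeal.isMaximal T).out
  rw [show (fun i => x i ^ 1) = x from funext fun i => pow_one _, hspan, len, Module.length_eq_one,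
    ENat.toNat_one, Nat.cast_one] at h1
  exact h1

/-- The values of both multiplicities at a prime, and their inequality. -/
theorem prime_case (R S : Type u) [CommRing R] [CommRing S] [IsLocalRing R] [IsLocalRing S]
    [IsNoetherianRing R] [IsNoetherianRing S] [Algebra R S] [IsLocalHom (algebraMap R S)]
    [Module.Flat R S] {d D : ℕ} (hd : ringKrullDim R = d) (hD : ringKrullDim S = D)
    (P : Ideal R) [P.IsPrime]
    (hP : ringKrullDim (R ⧸ P) = d →
      ringChar (R ⧸ P) = ringChar (ResidueField R) ∨ IsRegularLocalRing (R ⧸ P)) :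
    ∃ a a', HasMult R (R ⧸ P) d a ∧ HasMult S (S ⊗[R] (R ⧸ P)) D a' ∧ a ≤ a' := by
  set Q := P.map (algebraMap R S)
  have hPm : P ≤ maximalIdeal R := le_maximalIdeal Ideal.IsPrime.ne_top'
  have hQm : Q ≤ (maximalIdeal R).map (algebraMap R S) := Ideal.map_mono hPm
  have : IsLocalRing (R ⧸ P) :=
    IsLocalRing.of_surjective' (Ideal.Quotient.mk P) Ideal.Quotient.mk_surjective
  have : IsLocalHom (Ideal.Quotient.mk P) := IsLocalHom.of_surjective _ Ideal.Quotient.mk_surjective
  have : Nontrivial (S ⧸ Q) := Ideal.Quotient.nontrivial_iff.2 fun h =>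
    (map_maximalIdeal_lt_top (algebraMap R S)).ne (top_unique (h.ge.trans hQm))
  have : IsLocalRing (S ⧸ Q) :=
    IsLocalRing.of_surjective' (Ideal.Quotient.mk Q) Ideal.Quotient.mk_surjective
  have : IsLocalHom (Ideal.Quotient.mk Q) := IsLocalHom.of_surjective _ Ideal.Quotient.mk_surjective
  obtain ⟨E⟩ := exists_tensor_quotient (R := R) S P
  have hloc : IsLocalHom (algebraMap (R ⧸ P) (S ⧸ Q)) := ⟨fun a ha => by
    obtain ⟨a, rfl⟩ := Ideal.Quotient.mk_surjective a
    exact ((isUnit_map_iff (algebraMap R S) a).1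
      ((isUnit_map_iff (Ideal.Quotient.mk Q) _).1 ha)).map _⟩
  have hflat : Module.Flat (R ⧸ P) (S ⧸ Q) := by
    let f := LinearEquiv.extendScalarsOfSurjective (R := R) (S := R ⧸ P)
      Ideal.Quotient.mk_surjective
      ((TensorProduct.comm R (R ⧸ P) S).trans (E.symm.restrictScalars R))
    exact Module.Flat.of_linearEquiv f.symm
  -- dimensions
  obtain ⟨-, r, -, -, hr⟩ := Stage2.exists_minimalPrime_dim (A := S)
    (I := (maximalIdeal R).map (algebraMap R S)) (map_maximalIdeal_lt_top (algebraMap R S)).ne
  have hDr := Stage2.dim_eq_add hd hD hr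
  obtain ⟨d', a, hd', -, ha⟩ := exists_multiplicity (R ⧸ P)
  obtain ⟨D', a', hD', -, ha'⟩ := exists_multiplicity (S ⧸ Q)
  have hmapP : (maximalIdeal R).map (Ideal.Quotient.mk P) = maximalIdeal (R ⧸ P) :=
    IsLocalRing.eq_maximalIdeal (Ideal.IsMaximal.map_of_surjective_of_ker_le
      Ideal.Quotient.mk_surjective (Ideal.mk_ker.trans_le hPm))
  have hfib : (maximalIdeal (R ⧸ P)).map (algebraMap (R ⧸ P) (S ⧸ Q)) =
      ((maximalIdeal R).map (algebraMap R S)).map (Ideal.Quotient.mk Q) := by
    rw [← hmapP, Ideal.map_map, Ideal.map_map]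
    rfl
  have hr' : ringKrullDim ((S ⧸ Q) ⧸ (maximalIdeal (R ⧸ P)).map (algebraMap (R ⧸ P) (S ⧸ Q))) =
      r := by
    rw [hfib, ← hr]
    exact ringKrullDim_eq_of_ringEquiv (DoubleQuot.quotQuotEquivQuotOfLE hQm)
  have hDr' := Stage2.dim_eq_add hd' hD' hr'
  have hle : d' ≤ d := by
    have := ringKrullDim_le_of_surjective (Ideal.Quotient.mk P) Ideal.Quotient.mk_surjective
    rw [hd, hd'] at this
    exact_mod_cast this
  rcases hle.lt_or_eq with hlt | rfl
  · exact ⟨0, 0, hasMult_zero_of_lt P hd' hlt,
      (hasMult_zero_of_lt Q hD' (by omega)).congr E, le_rfl⟩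
  · obtain rfl : D' = D := by omega
    refine ⟨a, a', (hasMult_quotient_iff P _ a).2 ha,
      ((hasMult_quotient_iff Q _ a').2 ha').congr E, ?_⟩
    rcases hP hd' with hc | hreg
    · refine lech_equal_char (R ⧸ P) (S ⧸ Q) ?_ hd' hD' ha ha'
      obtain ⟨p, hp⟩ := CharP.exists (ResidueField R)
      have := charP_of_injective_ringHom
        (ResidueField.map (Ideal.Quotient.mk P)).injective p
      rw [hc, ringChar.eq (ResidueField R) p, ringChar.eq (ResidueField (R ⧸ P)) p]
    · exact (multiplicity_le_one (R ⧸ P) hd' ha).trans (one_le_multiplicity (S ⧸ Q) hD' ha')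

/-- Lech's inequality when every component of top dimension is regular or of equal
characteristic. -/
theorem lech_components (R S : Type u) [CommRing R] [CommRing S] [IsLocalRing R] [IsLocalRing S]
    [IsNoetherianRing R] [IsNoetherianRing S] [Algebra R S] [IsLocalHom (algebraMap R S)]
    [Module.Flat R S] {d D : ℕ} (hd : ringKrullDim R = d) (hD : ringKrullDim S = D)
    (hP : ∀ (P : Ideal R) [P.IsPrime], ringKrullDim (R ⧸ P) = d →
      ringChar (R ⧸ P) = ringChar (ResidueField R) ∨ IsRegularLocalRing (R ⧸ P))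
    {e e' : ℝ} (he : IsMultiplicity R d e) (he' : IsMultiplicity S D e') : e ≤ e' := by
  have main : ∃ a a', HasMult R R d a ∧ HasMult S (S ⊗[R] R) D a' ∧ a ≤ a' := by
    refine IsNoetherianRing.induction_on_isQuotientEquivQuotientPrime (A := R) (M := R)
      inferInstance
      (motive := fun M _ _ _ => ∃ a a', HasMult R M d a ∧ HasMult S (S ⊗[R] M) D a' ∧ a ≤ a')
      ?_ ?_ ?_
    · intro M _ _ _ _
      exact ⟨0, 0, hasMult_of_subsingleton M d, hasMult_of_subsingleton _ D, le_rfl⟩
    · intro M _ _ _ P f
      obtain ⟨a, a', h, h', hle⟩ := prime_case R S hd hD P.1 (hP P.1)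
      exact ⟨a, a', h.congr f.symm, h'.congr (f.symm.baseChange R S), hle⟩
    · intro M₁ _ _ _ M₂ _ _ _ M₃ _ _ _ f g hf hg hfg ⟨a, a', h₁, h₁', hle₁⟩ ⟨b, b', h₃, h₃', hle₃⟩
      exact ⟨a + b, a' + b', h₁.of_exact f g hf hg hfg h₃,
        h₁'.of_exact (f.baseChange S) (g.baseChange S)
          (Module.Flat.lTensor_preserves_injective_linearMap f hf) (LinearMap.lTensor_surjective S hg)
          (lTensor_exact S hfg hg) h₃', add_le_add hle₁ hle₃⟩
  obtain ⟨a, a', ha, ha', hle⟩ := main
  have h1 : ∀ (T : Type u) [CommRing T] [IsLocalRing T] (j : ℕ) (b : ℝ),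
      HasMult T T j b → IsMultiplicity T j b := by
    intro T _ _ j b h
    refine Tendsto.congr (fun N => ?_) h
    rw [(Submodule.quotEquivOfEq (maximalIdeal T ^ N • ⊤ : Submodule T T) (maximalIdeal T ^ N)
      (by rw [smul_eq_mul, Ideal.mul_top])).length_eq]
  rw [tendsto_nhds_unique he (h1 R d a ha), tendsto_nhds_unique he'
    (h1 S D a' (ha'.congr (TensorProduct.AlgebraTensorModule.rid R S S)))]
  exact hle

end Vale.Agent.P202.TopComp
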